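import Vale.Agent.P346.Main
import Vale.Agent.P346.Upper

namespace Vale.Agent.Results.P346.DepthFive

open Vale.Agent.P346

universe u

theorem result : ∃ n₀ : ℕ, ∀ n ≥ n₀,
    (∀ (K : Type u) [Field K] [CharZero K] (Γ : Circuit K (Fin n × Fin n × Fin n)),
      Γ.Homogeneous → Γ.out = IMM K n → (n : ℝ) ^ (√n / 1000) ≤ Γ.size) ∧
    (∀ (K : Type u) [Field K], ∃ Γ : Circuit K (Fin n × Fin n × Fin n),
      Γ.Homogeneous ∧ Γ.SumsNonempty ∧ Γ.out = IMM K n ∧ (Γ.size : ℝ) ≤ (n : ℝ) ^ (2 * √n)) := by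
  obtain ⟨n0, h⟩ := lower_bound.{u}
  exact ⟨max n0 36, fun n hn => ⟨h n (le_trans (le_max_left _ _) hn),
    fun K _ => upper_bound K n (le_trans (le_max_right _ _) hn)⟩⟩

end Vale.Agent.Results.P346.DepthFive
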